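import Vale.Agent.P085b.Stm

/-! From asymptotic freeness to a single generator. -/

set_option linter.unusedSectionVars false

namespace Vale.Agent.P085.G

open Filter Topology Finset Vale.Agent.P086

universe u

section

variable {A : Type u} [CStarAlgebra A] [Tr A]

theorem gen_perturb {N : StarSubalgebra ℂ A} (hl : Free N)
    {a v : A} (ha : a ∈ unitary A) (hv : v ∈ unitary A) {ε : ℝ} (hε : 0 < ε) :
    ∃ z ∈ unitary A, n2 (z - 1) < ε ∧ ∃ s : Fin 4 → A, (∀ j, s j ∈ unitary A ∧ s j ∈ N) ∧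
      ∃ L, n2 (wrd ![z * a * s 0, s 1, s 2] L - v * s 3) < ε := by
  classical
  obtain ⟨L, F, r, hkey⟩ := key3 hε
  have hy : ∀ j, ![a, 1, 1, v] j ∈ unitary A := by
    intro j
    fin_cases j
    exacts [ha, one_mem _, one_mem _, hv]
  choose s hs1 hs2 using fun n : ℕ => hl _ hy n _ (Nat.one_div_pos_of_nat (n := n))
  obtain ⟨φ, ψ, π, hπ, h1, h2⟩ := exists_product (U := fun n j => ![a, 1, 1, v] j * s n j)
    (V := fun j : Fin 4 => lamB (FreeGroup.of j)) (fun n j => mul_mem (hy j) (hs1 n j).1)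
    fun j => lamB_mem_unitary _
  have hψπ : ∀ g, ψ (π g) = lamB g := fun g => by
    rw [← FreeGroup.mk_toWord (x := g), h2, hom_mk lamB star_lamB]
  have hφU : ∀ n j, φ n (π (FreeGroup.of j)) = ![a, 1, 1, v] j * s n j := fun n j =>
    (h1 n [(j, true)]).trans (by simp [wrd])
  have hlim : ∀ g, Tendsto (fun n => τ (φ n (π g))) atTop (𝓝 (τ (ψ (π g)))) := by
    intro g
    rcases eq_or_ne g 1 with rfl | hg
    · simp only [map_one, τ_one]
      exact tendsto_const_nhds
    · rw [hψπ, τ_lamB, if_neg hg, tendsto_zero_iff_norm_tendsto_zero]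
      refine squeeze_zero' (Eventually.of_forall fun _ => norm_nonneg _) ?_
        tendsto_one_div_add_atTop_nhds_zero_nat
      filter_upwards [eventually_ge_atTop g.toWord.length] with n hn
      have := hs2 n _ hn (mt FreeGroup.toWord_eq_nil_iff.1 hg) FreeGroup.isReduced_toWord
      rwa [val_eq_wrd, ← h1, FreeGroup.mk_toWord] at this
  obtain ⟨n, z, hz, k1, k2⟩ := transfer_abs φ ψ π hπ hlim (L := L) (F := F) (r := r) (ε := ε)
    (by simpa only [hψπ] using hkey)
  refine ⟨z, hz, k1, s n, hs1 n, L, ?_⟩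
  simpa [hφU, mul_assoc] using k2

end

theorem s_gen : S_gen.{u} := fun A _ _ _ _ N hl => by
  let X := {x : LL A | toL.symm x ∈ (unitary A : Set A)}
  have : CompleteSpace X := (isComplete_of_seq (fun x hx => norm_unitary_le hx) fun u x hu h =>
    ⟨(h.star.mul h fun n => norm_unitary_le (Unitary.star_mem (hu n))).eq_of_eq (T2.const 1)
        fun n => (hu n).1,
      (h.mul h.star fun n => norm_unitary_le (hu n)).eq_of_eq (T2.const 1)
        fun n => (hu n).2⟩).completeSpace_coe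
  have : Nonempty X := ⟨⟨toL 1, one_mem (unitary A)⟩⟩
  have : SecondCountableTopology (LL A) := UniformSpace.secondCountable_of_separable _
  obtain ⟨d, hd⟩ := TopologicalSpace.exists_dense_seq X
  let O : ℕ × ℕ → Set X := fun p => {a | ∃ s : Fin 4 → A, (∀ j, s j ∈ unitary A ∧ s j ∈ N) ∧
    ∃ L, n2 (wrd ![toL.symm a.1 * s 0, s 1, s 2] L - toL.symm (d p.1).1 * s 3)
      < 1 / ((p.2 : ℝ) + 1)}
  have hu : ∀ (a : X) (s : Fin 4 → A), (∀ j, s j ∈ unitary A ∧ s j ∈ N) →
      ∀ j, ![toL.symm a.1 * s 0, s 1, s 2] j ∈ unitary A := by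
    intro a s hs j
    fin_cases j
    exacts [mul_mem a.2 (hs 0).1, (hs 1).1, (hs 2).1]
  have hO := dense_iInter_of_isOpen (f := O) (fun p => ?_) (fun p => ?_)
  · obtain ⟨a, ha⟩ := hO.nonempty
    refine ⟨toL.symm a.1, fun S hS hN haS y => ?_⟩
    have h1 : ∀ v ∈ unitary A, v ∈ S := by
      intro v hv
      have : ∀ n : ℕ, ∃ w ∈ S, ‖w‖ ≤ 1 ∧ n2 (w - v) ≤ 2 * (1 / ((n : ℝ) + 1)) := by
        intro n
        obtain ⟨i, hi⟩ := Metric.denseRange_iff.1 hd ⟨toL v, hv⟩ _ (Nat.one_div_pos_of_nat (n := n))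
        obtain ⟨s, hs, L, h⟩ := Set.mem_iInter.1 ha (i, n)
        have h3 := Unitary.star_mem (hs 3).1
        refine ⟨wrd ![toL.symm a.1 * s 0, s 1, s 2] L * star (s 3), mul_mem (wrd_mem (fun j => ?_) L)
          (star_mem (hN (hs 3).2)), norm_unitary_le (mul_mem (wrd_mem_unitary (hu a s hs) L) h3),
          (n2_triangle _ (toL.symm (d i).1) _).trans ?_⟩
        · fin_cases j
          exacts [mul_mem haS (hN (hs 0).2), hN (hs 1).2, hN (hs 2).2]
        · rw [← n2_mul_unitary _ h3, sub_mul, mul_assoc, (hs 3).1.2, mul_one] at h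
          have : n2 (toL.symm (d i).1 - v) < 1 / ((n : ℝ) + 1) := by
            rw [← dist_toL, dist_comm]
            exact hi
          dsimp only at h
          linarith
      choose w h1 h2 h3 using this
      refine hS.mem w v h1 h2 (T2_iff.2 (squeeze_zero (fun _ => n2_nonneg _) h3 ?_))
      simpa using (tendsto_one_div_add_atTop_nhds_zero_nat (𝕜 := ℝ)).const_mul 2
    obtain ⟨v, c, rfl, -⟩ := CStarAlgebra.exists_sum_four_unitary y
    exact sum_mem fun i _ => SMulMemClass.smul_mem _ (h1 _ (v i).2)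
  · rw [Metric.isOpen_iff]
    rintro a ⟨s, hs, L, h⟩
    set δ := 1 / ((p.2 : ℝ) + 1)
      - n2 (wrd ![toL.symm a.1 * s 0, s 1, s 2] L - toL.symm (d p.1).1 * s 3) with hδ
    have hδ0 : 0 < δ := sub_pos.2 h
    have hδ1 : 0 < δ / (L.length + 1) := by positivity
    refine ⟨_, hδ1, fun b hb => ⟨s, hs, L, ?_⟩⟩
    have h1 := n2_wrd_sub (hu b s hs) (hu a s hs) (δ := δ / (L.length + 1)) (fun j => by
      fin_cases j
      · have : n2 (toL.symm b.1 - toL.symm a.1) < δ / (L.length + 1) := by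
          rw [← dist_toL]
          exact hb
        simpa only [Fin.zero_eta, Matrix.cons_val_zero, ← sub_mul, n2_mul_unitary _ (hs 0).1]
          using this.le
      · simpa [n2_zero] using hδ1.le
      · simpa [n2_zero] using hδ1.le) L
    have h2 : L.length * (δ / (L.length + 1)) + δ / (L.length + 1) = δ := by field_simp
    refine (n2_triangle _ (wrd ![toL.symm a.1 * s 0, s 1, s 2] L) _).trans_lt ?_
    linarith
  · rw [Metric.dense_iff]
    intro a ε hε
    obtain ⟨z, hz, h1, s, hs, L, h2⟩ := gen_perturb hl a.2 (d p.1).2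
      (ε := min ε (1 / ((p.2 : ℝ) + 1))) (by positivity)
    refine ⟨⟨toL (z * toL.symm a.1), mul_mem hz a.2⟩, ?_, s, hs, L,
      h2.trans_le (min_le_right _ _)⟩
    rw [← n2_mul_unitary (u := toL.symm a.1) _ a.2, sub_mul, one_mul, ← dist_toL] at h1
    exact h1.trans_le (min_le_left _ _)

theorem gen_four (h1 : S_ce.{u}) (h2 : S_tower.{u}) (h3 : S_mixing.{u}) (h4 : S_free.{u})
    {A : Type u} [CStarAlgebra A] [Tr A] [WTr A] [TopologicalSpace.SeparableSpace (LL A)]
    (hA : Nil (⊤ : StarSubalgebra ℂ A)) : ∃ h : Fin 4 → A, (∀ j, star (h j) = h j) ∧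
    ∀ S : StarSubalgebra ℂ A, IsW S → (∀ j, h j ∈ S) → ∀ y, y ∈ S := by
  obtain ⟨E, hE⟩ := h1 A
  obtain ⟨x, z, h⟩ := h2 A E hA hE
  obtain ⟨l, hl⟩ := h3 A E x z (StarAlgebra.adjoin ℂ (Set.range x ∪ Set.range z)) hE h
    (fun k => StarAlgebra.subset_adjoin _ _ (Or.inl ⟨k, rfl⟩))
    fun k => StarAlgebra.subset_adjoin _ _ (Or.inr ⟨k, rfl⟩)
  obtain ⟨a, ha⟩ := s_gen A _ (h4 A E _ l hE hl)
  obtain ⟨p, hp1, hp2⟩ := exists_series (fun k => (h.pauli k).sx) (fun k => (h.pauli k).xx)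
    fun j k hjk => ((h.pauli j).mem_cent.1 (h.comm j k hjk).1).1
  obtain ⟨q, hq1, hq2⟩ := exists_series (fun k => (h.pauli k).sz) (fun k => (h.pauli k).zz)
    fun j k hjk => ((h.pauli j).mem_cent.1 (h.comm j k hjk).2).2
  refine ⟨![p, q, herm a, herm (-Complex.I • a)], fun j => ?_, fun S hS hm => ha S hS ?_ ?_⟩
  · fin_cases j
    exacts [hp1, hq1, star_herm _, star_herm _]
  · refine StarAlgebra.adjoin_le ?_
    rintro _ (⟨k, rfl⟩ | ⟨k, rfl⟩)
    exacts [hp2 S inferInstance (hm 0) k, hq2 S inferInstance (hm 1) k]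
  · rw [herm_decomp a]
    exact add_mem (hm 2) (SMulMemClass.smul_mem _ (hm 3))

theorem s_single (h0 : S_pauli.{u}) (h1 : S_ce.{u}) (h2 : S_tower.{u}) (h3 : S_mixing.{u})
    (h4 : S_free.{u}) : S_single.{u} := fun A _ _ _ _ hA => by
  obtain ⟨x, -, z, -, h⟩ := h0 A ⊤ (II.top hA)
  have hQ := (II.top hA).inf_cent trivial trivial h
  set Q := ⊤ ⊓ cent x z with hQdef
  have := hQ.isW
  have : SecondCountableTopology (LL A) := UniformSpace.secondCountable_of_separable _
  have : SecondCountableTopology (LL Q) :=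
    (Isometry.of_dist_eq (f := fun v : LL Q => toL ((toL.symm v : Q) : A))
      fun _ _ => rfl).isEmbedding.secondCountableTopology
  obtain ⟨g, hg1, hg2⟩ := gen_four h1 h2 h3 h4 hQ.nil.top
  have hs : ∀ j, star (g j : A) = g j := fun j => congrArg Subtype.val (hg1 j)
  have hx : ∀ j, (g j : A) * x = x * g j := fun j => (h.mem_cent.1 (g j).2.2).1.symm
  have hz : ∀ j, z * (g j : A) = g j * z := fun j => (h.mem_cent.1 (g j).2.2).2
  obtain ⟨e, he1, he2, hex, hez, hec, heS⟩ : ∃ e : A, star e = e ∧ e * e = e ∧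
      x * e = x - e * x ∧ z * e = e * z ∧ (∀ c, z * c = c * z → c * e = e * c) ∧
      ∀ S : StarSubalgebra ℂ A, z ∈ S → e ∈ S := by
    refine ⟨(2⁻¹ : ℂ) • (1 + z), by simp [h.sz], ?_, ?_, by simp [mul_add, add_mul], fun c hc => ?_,
      fun S hz => SMulMemClass.smul_mem _ (add_mem (one_mem _) hz)⟩
    · simp only [mul_smul_comm, smul_mul_assoc, mul_add, add_mul, h.zz, one_mul, mul_one]
      module
    · simp only [mul_smul_comm, smul_mul_assoc, mul_add, add_mul, h.zx, one_mul, mul_one]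
      module
    · simp only [mul_smul_comm, smul_mul_assoc, mul_add, add_mul, hc, one_mul, mul_one]
  set K : Fin 4 → Fin 4 → A := fun i j => e * g i + (g j - e * g j) with hK
  have hK1 : ∀ i j, star (K i j) = K i j := fun i j => by
    simp only [hK, star_add, star_sub, star_mul, hs, he1, hec _ (hz _)]
  have hK2 : ∀ i j, K i j * z = z * K i j := fun i j => by
    simp only [hK, add_mul, mul_add, sub_mul, mul_sub, mul_assoc, ← hz]
    simp only [← mul_assoc, hez]
  have he3 : ∀ w, e * (e * w) = e * w := fun w => by rw [← mul_assoc, he2]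
  have hex' : ∀ v, x * (e * v) = x * v - e * (x * v) := fun v => by
    rw [← mul_assoc, hex, sub_mul, mul_assoc]
  have hK3 : ∀ (S : StarSubalgebra ℂ A) i j, x ∈ S → z ∈ S → K i j ∈ S →
      (g i : A) ∈ S ∧ (g j : A) ∈ S := by
    intro S i j hxS hzS hm
    have a1 := mul_mem (heS S hzS) hm
    have a2 := sub_mem hm a1
    have b1 := add_mem a1 (mul_mem (mul_mem hxS a1) hxS)
    have b2 := add_mem a2 (mul_mem (mul_mem hxS a2) hxS)
    simp only [hK, mul_add, mul_sub, add_mul, sub_mul, he3, mul_assoc, hx, hex', h.xx'] at b1 b2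
    exact ⟨by convert b1 using 1; abel, by convert b2 using 1; abel⟩
  set c : ℝ := (‖K 0 1‖ + 1)⁻¹ with hc
  have hc0 : 0 < c := by positivity
  refine ⟨z + (c : ℂ) • K 0 1 + Complex.I • (x + K 2 3), fun S hS hw y => ?_⟩
  have hw' := star_mem hw
  rw [star_add, star_add, star_smul, star_smul, star_add x, h.sz, h.sx, hK1, hK1, Complex.star_def,
    Complex.conj_I, Complex.conj_ofReal] at hw'
  have m1 : z + (c : ℂ) • K 0 1 ∈ S := by
    convert SMulMemClass.smul_mem (2⁻¹ : ℂ) (add_mem hw hw') using 1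
    module
  have m2 : x + K 2 3 ∈ S := by
    have := SMulMemClass.smul_mem (-Complex.I) (sub_mem hw m1)
    rwa [add_sub_cancel_left, smul_smul, neg_mul, Complex.I_mul_I, neg_neg, one_smul] at this
  have m3 : z ∈ S := by
    refine sign_mem h.sz h.zz (by simp [hK1]) (by simp [hK2]) ?_ m1
    rw [norm_smul, Complex.norm_real, Real.norm_of_nonneg hc0.le, hc,
      inv_mul_lt_iff₀ (by positivity)]
    linarith
  have m4 : K 0 1 ∈ S := by
    have := SMulMemClass.smul_mem ((c⁻¹ : ℝ) : ℂ) (sub_mem m1 m3)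
    rwa [add_sub_cancel_left, smul_smul, ← Complex.ofReal_mul, inv_mul_cancel₀ hc0.ne',
      Complex.ofReal_one, one_smul] at this
  have m5 : x ∈ S := by
    have := SMulMemClass.smul_mem (2⁻¹ : ℂ) (sub_mem m2 (mul_mem m3 (mul_mem m2 m3)))
    rw [add_mul, hK2, mul_add, h.zz', h.zx', h.zz, mul_one] at this
    convert this using 1
    module
  have m6 : K 2 3 ∈ S := by simpa using sub_mem m2 m5
  have hall := hg2 (S.comap Q.subtype) ⟨fun u v hu hb hv => hS.mem _ _ hu hb (T2_coe.1 hv)⟩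
    fun j => by
      fin_cases j
      exacts [(hK3 S 0 1 m5 m3 m4).1, (hK3 S 0 1 m5 m3 m4).2, (hK3 S 2 3 m5 m3 m6).1,
        (hK3 S 2 3 m5 m3 m6).2]
  have ht : ∀ y, tw x z y ∈ S := fun y =>
    hall ⟨tw x z y, trivial, h.mem_cent.2 ⟨h.comm_x y, h.comm_z y⟩⟩
  rw [h.decomp y]
  exact add_mem (add_mem (add_mem (ht _) (mul_mem m5 (ht _))) (mul_mem m3 (ht _)))
    (mul_mem (mul_mem m5 m3) (ht _))

end Vale.Agent.P085.G
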