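import Vale.Agent.P085b.Stm

/-! Pauli pairs and mixing Pauli pairs. -/

set_option linter.unusedSectionVars false

namespace Vale.Agent.P085.G

open Filter Topology
open scoped InnerProductSpace ComplexOrder

universe u

section

variable {A : Type u} [CStarAlgebra A] [Tr A] [WTr A]

theorem pauli_corner (hA : Nil (⊤ : StarSubalgebra ℂ A)) {r : A} (hr1 : star r = r)
    (hr2 : r * r = r) (h0 : r ≠ 0) :
    ∃ v : A, v ≠ 0 ∧ v * star v * v = v ∧ v * v = 0 ∧ r * v = v ∧ v * r = v := by
  obtain ⟨t, -, t0, t1, t2, t3⟩ := hA r trivial hr1 hr2 h0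
  obtain ⟨v, h1, h2, h3, h4, h5⟩ := exists_piso t0 t1
  refine ⟨v, h1, h2, h3, ?_, ?_⟩
  · have := h4 (1 - r) (by rw [sub_mul, one_mul, t2, sub_self])
    rw [sub_mul, one_mul, sub_eq_zero] at this
    exact this.symm
  · have := h5 (1 - r) (by rw [mul_sub, mul_one, t3, sub_self])
    rw [mul_sub, mul_one, sub_eq_zero] at this
    exact this.symm

theorem pauli_top (hA : Nil (⊤ : StarSubalgebra ℂ A)) : ∃ x z : A, IsPauli x z := by
  set S : Set A := {v | v * star v * v = v ∧ v * v = 0} with hS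
  obtain ⟨v, ⟨hv1, hv2⟩, hmax⟩ := exists_maximal_of_complete (S := {x : LL A | toL.symm x ∈ S})
    (isComplete_of_seq (fun v hv => norm_piso_le hv.1) fun u x hu h =>
      ⟨((h.mul h.star fun n => norm_piso_le (hu n).1).mul h fun n => norm_mul_le_one
          (norm_piso_le (hu n).1) (by rw [norm_star]; exact norm_piso_le (hu n).1)).eq_of_eq h
          fun n => (hu n).1,
        (h.mul h fun n => norm_piso_le (hu n).1).eq_of_eq (T2.const 0) fun n => (hu n).2⟩)
    ⟨0, by simp [hS]⟩
    (fun v w => toL.symm w * (star (toL.symm v) * toL.symm v) = toL.symm v ∧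
      star (toL.symm w) * toL.symm v = star (toL.symm v) * toL.symm v)
    (fun v hv => ⟨by rw [← mul_assoc]; exact hv.1, rfl⟩)
    (fun u v w h1 h2 => by
      generalize toL.symm u = u at *
      generalize toL.symm v = v at *
      generalize toL.symm w = w at *
      have e : star v * v * (star u * u) = star u * u := by rw [mul_assoc, h1.1, h1.2]
      refine ⟨by rw [← e, ← mul_assoc, h2.1, h1.1], ?_⟩
      nth_rewrite 1 [← h1.1]
      rw [← mul_assoc, h2.2, e])
    (fun v => ‖v‖ ^ 2)
    (fun v hv => pow_le_one₀ (norm_nonneg _) ((n2_le_norm (toL.symm v)).trans (norm_piso_le hv.1)))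
    (fun v u w hu h => by
      have h' : T2 atTop (fun n => toL.symm (u n)) (toL.symm w) := h
      exact ⟨(h'.mul_const _).eq_of_eq (T2.const _) fun n => (hu n).1,
        (h'.star.mul_const _).eq_of_eq (T2.const _) fun n => (hu n).2⟩)
    (fun v w h => by
      have h1 := n2_sub_sq (toL.symm w) (toL.symm v)
      rw [h.2, ← n2_sq, ← dist_toL, dist_comm] at h1
      change dist v w ^ 2 = ‖w‖ ^ 2 - 2 * ‖v‖ ^ 2 + ‖v‖ ^ 2 at h1
      linarith)
  have hmax' : ∀ w ∈ S, w * (star (toL.symm v) * toL.symm v) = toL.symm v →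
      star w * toL.symm v = star (toL.symm v) * toL.symm v → w = toL.symm v :=
    fun w hw h1 h2 => hmax (toL w) hw ⟨h1, h2⟩
  generalize toL.symm v = v at *
  have a1 : v * (star v * v) = v := by rw [← mul_assoc, hv1]
  have a2 : star v * (v * star v) = star v := by
    simpa only [star_mul, star_star] using congrArg star hv1
  have a3 : star v * star v = 0 := by rw [← star_mul, hv2, star_zero]
  have b3 : ∀ y, v * (v * y) = 0 := fun y => by rw [← mul_assoc, hv2, zero_mul]
  have b4 : ∀ y, star v * (star v * y) = 0 := fun y => by rw [← mul_assoc, a3, zero_mul]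
  have hr : 1 - star v * v - v * star v = 0 := by
    by_contra h0
    set r := 1 - star v * v - v * star v with hr
    have c1 : r * v = 0 := by simp [hr, sub_mul, mul_assoc, a1, hv2]
    have c2 : v * r = 0 := by simp [hr, mul_sub, a1, b3]
    have c0 : star r = r := by simp [hr]
    have c3 : star v * r = 0 := by rw [← star_eq_zero, star_mul, star_star, c0, c1]
    have c4 : r * star v = 0 := by rw [← star_eq_zero, star_mul, star_star, c0, c2]
    obtain ⟨w, h1, h2, h3, h4, h5⟩ := pauli_corner hA c0 (by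
      nth_rewrite 2 [hr]
      rw [mul_sub, mul_sub, ← mul_assoc, ← mul_assoc, c1, c4]; simp) h0
    have d1 : v * w = 0 := by rw [← h4, ← mul_assoc, c2, zero_mul]
    have d2 : w * v = 0 := by rw [← h5, mul_assoc, c1, mul_zero]
    have d3 : star v * w = 0 := by rw [← h4, ← mul_assoc, c3, zero_mul]
    have d4 : w * star v = 0 := by rw [← h5, mul_assoc, c4, mul_zero]
    have d5 : star w * v = 0 := by rw [← star_eq_zero, star_mul, star_star, d3]
    have d6 : v * star w = 0 := by rw [← star_eq_zero, star_mul, star_star, d4]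
    have := hmax' (v + w) ⟨?_, ?_⟩ ?_ ?_
    · exact h1 (add_eq_left.1 this)
    · rw [star_add, add_mul v, mul_add v, mul_add w, d4, d6, add_zero, zero_add, add_mul, mul_add,
        mul_add, hv1, h2, mul_assoc, mul_assoc, d3, d5]
      simp
    · simp [add_mul, mul_add, hv2, h3, d1, d2]
    · rw [add_mul, a1, ← mul_assoc, d4]; simp
    · rw [star_add, add_mul, d5, add_zero]
  have e : star v * v + v * star v = 1 := by rw [← sub_eq_zero, ← neg_eq_zero, ← hr]; abel
  refine ⟨v + star v, star v * v - v * star v, by simp [add_comm], by simp, ?_, ?_, ?_⟩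
  · simp [add_mul, mul_add, hv2, a3, e, add_comm]
  · rw [← e]
    simp [sub_mul, mul_sub, mul_assoc, a1, a2, b3, b4]
  · simp [sub_mul, mul_sub, add_mul, mul_add, mul_assoc, a1, a2, a3, hv2, b3, b4]
    abel

end

theorem s_pauli : S_pauli.{u} := fun A _ _ _ Q hQ => by
  have := hQ.isW
  obtain ⟨x, z, h⟩ := pauli_top hQ.nil.top
  exact ⟨x, x.2, z, z.2, congrArg Subtype.val h.sx, congrArg Subtype.val h.sz,
    congrArg Subtype.val h.xx, congrArg Subtype.val h.zz, congrArg Subtype.val h.zx⟩

theorem s_mix (hav : S_avg.{u}) : S_mix.{u} := fun A _ _ _ Q hQ y hy hτ => by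
  obtain ⟨x, hx, z, hz, h⟩ := s_pauli A Q hQ
  by_contra hcon
  push Not at hcon
  have key : ∀ g ∈ Q, g ∈ unitary A →
      n2 (star g * y * g - tw x z (star g * y * g)) ^ 2 < 1 / 10 * n2 y ^ 2 := by
    intro g hg hu
    have := hcon _ (mul_mem (mul_mem hg hx) (star_mem hg)) _
      (mul_mem (mul_mem hg hz) (star_mem hg)) (h.conj hu)
    rw [IsPauli.tw_conj hu, n2_mul_unitary _ (Unitary.star_mem hu), n2_unitary_mul hu] at this
    rw [h.n2_sub_tw, n2_mul_unitary _ hu, n2_unitary_mul (Unitary.star_mem hu)]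
    linarith
  have k1 := key 1 (one_mem _) (one_mem _)
  rw [star_one, one_mul, mul_one] at k1
  have k2 := h.n2_sub_tw y
  set y1 := tw x z y with hy1
  have hm : y1 ∈ Q ⊓ cent x z := ⟨tw_mem hx hz hy, h.mem_cent.2 ⟨h.comm_x y, h.comm_z y⟩⟩
  obtain ⟨e, he, he1, he2, hex, hez, hec⟩ : ∃ e ∈ Q, star e = e ∧ e * e = e ∧
      x * e = x - e * x ∧ 1 - e - e = -z ∧ ∀ c, z * c = c * z → c * e = e * c := by
    refine ⟨(2⁻¹ : ℂ) • (1 + z), SMulMemClass.smul_mem _ (add_mem (one_mem _) hz),
      by simp [h.sz], ?_, ?_, by module, fun c hc => ?_⟩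
    · simp only [mul_smul_comm, smul_mul_assoc, mul_add, add_mul, h.zz, one_mul, mul_one]
      module
    · simp only [mul_smul_comm, smul_mul_assoc, mul_add, add_mul, h.zx, one_mul, mul_one]
      module
    · simp only [mul_smul_comm, smul_mul_assoc, mul_add, add_mul, hc, one_mul, mul_one]
  have := hav A _ (hQ.inf_cent hx hz h) _ hm _ (star_mem hm)
    (fun d hd => by rw [hy1, h.τ_mul_tw (hd x).symm (hd z).symm, hτ d hd])
    (n2 y1 ^ 2 - 8 / 10 * n2 y ^ 2) ?_
  · linarith [sq_nonneg (n2 y)]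
  intro u hu huu
  have hc : ∀ c ∈ Q ⊓ cent x z, (∀ w, c * (e * w) = e * (c * w)) ∧ c * e = e * c ∧
      c * x = x * c := fun c hc => by
    have := hec c (h.mem_cent.1 hc.2).2
    exact ⟨fun w => by rw [← mul_assoc, this, mul_assoc], this, (h.mem_cent.1 hc.2).1.symm⟩
  have he3 : ∀ w, e * (e * w) = e * w := fun w => by rw [← mul_assoc, he2]
  obtain ⟨a1, a2, -⟩ := hc u hu
  obtain ⟨b1, b2, -⟩ := hc _ (star_mem hu)
  obtain ⟨c1, c2, c3⟩ := hc _ hm
  set w := u * y1 * star u with hw
  obtain ⟨-, -, d3⟩ := hc w (mul_mem (mul_mem hu hm) (star_mem hu))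
  set g := e * star u + (1 - e) with hg
  have hsg : star g = e * u + (1 - e) := by simp [hg, he1, a2]
  have hgu : g ∈ unitary A := by
    constructor <;> rw [hsg, hg] <;>
      simp only [mul_add, add_mul, mul_sub, sub_mul, mul_assoc, a1, a2, b1, b2, he2, he3, huu.1,
        huu.2, mul_one, one_mul] <;> abel
  have hgQ : g ∈ Q := add_mem (mul_mem he (star_mem hu.1)) (sub_mem (one_mem _) he)
  have e1 : star g * y1 * g = e * w + (y1 - e * y1) := by
    rw [hsg, hg, hw]
    simp only [mul_add, add_mul, mul_sub, sub_mul, mul_assoc, a1, c1, c2, he3, mul_one,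
      one_mul]
    abel
  have e2 : x * (star g * y1 * g) * x - star g * y1 * g = -z * (w - y1) := by
    have hex' : ∀ v, x * (e * v) = x * v - e * (x * v) := fun v => by
      rw [← mul_assoc, hex, sub_mul, mul_assoc]
    rw [e1, ← hez]
    simp only [mul_add, add_mul, mul_sub, sub_mul, mul_assoc, c3, d3, hex', h.xx', one_mul]
    abel
  have k3 := key g hgQ hgu
  set c := tw x z (star g * y * g) with hc
  have e3 : -z * (w - y1) = x * (star g * y1 * g - c) * x - (star g * y1 * g - c) := by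
    rw [← e2, mul_sub, sub_mul, hc, h.comm_x, mul_assoc _ x x, h.xx, mul_one]
    abel
  have k4 : n2 (w - y1) ≤ 2 * n2 (star g * y1 * g - c) := by
    rw [← n2_unitary_mul h.z_unitary, ← n2_neg, ← neg_mul, e3]
    refine (n2_sub_le _ _).trans ?_
    rw [n2_mul_unitary _ h.x_unitary, n2_unitary_mul h.x_unitary]
    linarith
  have k5 := n2_triangle (star g * y1 * g) (star g * y * g) c
  rw [← sub_mul, ← mul_sub, n2_mul_unitary _ hgu, n2_unitary_mul (Unitary.star_mem hgu),
    n2_sub_comm y1] at k5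
  have k6 := n2_sub_sq y1 w
  rw [n2_sub_comm] at k6
  have k7 : n2 w = n2 y1 := by
    rw [hw, n2_mul_unitary _ (Unitary.star_mem huu), n2_unitary_mul huu]
  rw [k7] at k6
  have k8 := n2_nonneg (w - y1)
  have k9 : n2 (w - y1) ^ 2 ≤ (2 * (n2 (y - y1) + n2 (star g * y * g - c))) ^ 2 := by
    gcongr
    linarith
  nlinarith [sq_nonneg (n2 (y - y1) - n2 (star g * y * g - c))]

end Vale.Agent.P085.G
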